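import Mathlib

/-!
# Zero estimate for two-block determinants

`L` and `ρ` are linear functionals on polynomials (with the weights included).  An index `(K, M)`
is normal if the only polynomial `G` of degree `< K + M` with `L (X^i G) = 0` for `i < K` and
`ρ (X^l G) = 0` for `l < M` is `0`.
-/

namespace Vale.Agent.P021.Hyb

open Polynomial

/-- The polynomial with given coefficients. -/
noncomputable def ofVec {n : ℕ} (v : Fin n → ℝ) : ℝ[X] := ∑ j : Fin n, C (v j) * X ^ (j : ℕ)

lemma ofVec_degree {n : ℕ} (v : Fin n → ℝ) : (ofVec v).degree < n := by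
  rw [ofVec, ← Polynomial.mem_degreeLT]
  refine Submodule.sum_mem _ fun j _ => ?_
  rw [Polynomial.mem_degreeLT]
  exact lt_of_le_of_lt (degree_C_mul_X_pow_le _ _) (by exact_mod_cast j.2)

lemma ofVec_coeff {n : ℕ} (v : Fin n → ℝ) (i : Fin n) : (ofVec v).coeff i = v i := by
  rw [ofVec, finsetSum_coeff, Finset.sum_eq_single i]
  · simp
  · intro b _ hb
    rw [coeff_C_mul_X_pow, if_neg]
    intro h
    exact hb (Fin.ext h.symm)
  · intro h; exact absurd (Finset.mem_univ _) h

lemma ofVec_coeff_self {n : ℕ} (A : ℝ[X]) (hA : A.degree < n) :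
    ofVec (fun i : Fin n => A.coeff i) = A := by
  ext k
  by_cases hk : k < n
  · exact ofVec_coeff _ ⟨k, hk⟩
  · have h1 : (ofVec (fun i : Fin n => A.coeff i)).coeff k = 0 :=
      coeff_eq_zero_of_degree_lt (lt_of_lt_of_le (ofVec_degree _) (by exact_mod_cast not_lt.1 hk))
    have h2 : A.coeff k = 0 :=
      coeff_eq_zero_of_degree_lt (lt_of_lt_of_le hA (by exact_mod_cast not_lt.1 hk))
    rw [h1, h2]

lemma ofVec_zero {n : ℕ} {v : Fin n → ℝ} (h : ofVec v = 0) : v = 0 := by
  funext i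
  have := ofVec_coeff v i
  rw [h, coeff_zero] at this
  exact this.symm

/-- The two-block matrix. -/
noncomputable def BM (L ρ : ℝ[X] →ₗ[ℝ] ℝ) (K M : ℕ) : Matrix (Fin (K + M)) (Fin (K + M)) ℝ :=
  Matrix.of fun r j => Fin.addCases (fun i : Fin K => L (X ^ ((i : ℕ) + (j : ℕ))))
    (fun l : Fin M => ρ (X ^ ((l : ℕ) + (j : ℕ)))) r

/-- the orthogonality conditions -/
def Cond (L ρ : ℝ[X] →ₗ[ℝ] ℝ) (K M : ℕ) (G : ℝ[X]) : Prop :=
  (∀ i < K, L (X ^ i * G) = 0) ∧ ∀ l < M, ρ (X ^ l * G) = 0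

/-- normality -/
def Normal (L ρ : ℝ[X] →ₗ[ℝ] ℝ) (K M : ℕ) : Prop :=
  ∀ G : ℝ[X], G.degree < ((K + M : ℕ) : WithBot ℕ) → Cond L ρ K M G → G = 0

/-- dual normality -/
def DNormal (L ρ : ℝ[X] →ₗ[ℝ] ℝ) (K M : ℕ) : Prop :=
  ∀ F E : ℝ[X], F.degree < (K : WithBot ℕ) → E.degree < (M : WithBot ℕ) →
    (∀ j < K + M, L (F * X ^ j) + ρ (E * X ^ j) = 0) → F = 0 ∧ E = 0

variable {L ρ : ℝ[X] →ₗ[ℝ] ℝ}

lemma map_ofVec_mul (φ : ℝ[X] →ₗ[ℝ] ℝ) {n : ℕ} (v : Fin n → ℝ) (k : ℕ) :
    φ (ofVec v * X ^ k) = ∑ j : Fin n, v j * φ (X ^ ((j : ℕ) + k)) := by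
  rw [ofVec, Finset.sum_mul, map_sum]
  refine Finset.sum_congr rfl fun j _ => ?_
  rw [mul_assoc, ← pow_add, ← smul_eq_C_mul, map_smul, smul_eq_mul]

lemma BM_mulVec_left {K M : ℕ} (v : Fin (K + M) → ℝ) (i : Fin K) :
    (BM L ρ K M).mulVec v (Fin.castAdd M i) = L (X ^ (i : ℕ) * ofVec v) := by
  rw [Matrix.mulVec, dotProduct, mul_comm, map_ofVec_mul]
  refine Finset.sum_congr rfl fun j _ => ?_
  rw [BM, Matrix.of_apply, Fin.addCases_left, mul_comm, add_comm (i : ℕ)]

lemma BM_mulVec_right {K M : ℕ} (v : Fin (K + M) → ℝ) (l : Fin M) :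
    (BM L ρ K M).mulVec v (Fin.natAdd K l) = ρ (X ^ (l : ℕ) * ofVec v) := by
  rw [Matrix.mulVec, dotProduct, mul_comm, map_ofVec_mul]
  refine Finset.sum_congr rfl fun j _ => ?_
  rw [BM, Matrix.of_apply, Fin.addCases_right, mul_comm, add_comm (l : ℕ)]

lemma BM_vecMul {K M : ℕ} (v : Fin (K + M) → ℝ) (j : Fin (K + M)) :
    Matrix.vecMul v (BM L ρ K M) j =
      L (ofVec (fun i : Fin K => v (Fin.castAdd M i)) * X ^ (j : ℕ)) +
        ρ (ofVec (fun l : Fin M => v (Fin.natAdd K l)) * X ^ (j : ℕ)) := by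
  rw [Matrix.vecMul, dotProduct, Fin.sum_univ_add, map_ofVec_mul, map_ofVec_mul]
  congr 1
  · refine Finset.sum_congr rfl fun i _ => ?_
    rw [BM, Matrix.of_apply, Fin.addCases_left]
  · refine Finset.sum_congr rfl fun i _ => ?_
    rw [BM, Matrix.of_apply, Fin.addCases_right]

theorem normal_iff_det {K M : ℕ} : Normal L ρ K M ↔ (BM L ρ K M).det ≠ 0 := by
  constructor
  · intro h hdet
    obtain ⟨v, hv, hv2⟩ := Matrix.exists_mulVec_eq_zero_iff.2 hdet
    apply hv
    apply ofVec_zero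
    refine h _ (ofVec_degree v) ⟨fun i hi => ?_, fun l hl => ?_⟩
    · have := congrFun hv2 (Fin.castAdd M ⟨i, hi⟩)
      rwa [BM_mulVec_left] at this
    · have := congrFun hv2 (Fin.natAdd K ⟨l, hl⟩)
      rwa [BM_mulVec_right] at this
  · intro h G hG hC
    by_contra hne
    apply h
    refine Matrix.exists_mulVec_eq_zero_iff.1 ⟨fun i => G.coeff i, ?_, ?_⟩
    · intro h0
      apply hne
      rw [← ofVec_coeff_self G hG]
      have h1 : (fun i : Fin (K + M) => G.coeff i) = 0 := h0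
      rw [h1, ofVec]
      simp
    · funext r
      rw [← ofVec_coeff_self G hG] at hC
      refine Fin.addCases (fun i => ?_) (fun l => ?_) r
      · rw [BM_mulVec_left]
        exact hC.1 _ i.2
      · rw [BM_mulVec_right]
        exact hC.2 _ l.2

theorem dnormal_iff_det {K M : ℕ} : DNormal L ρ K M ↔ (BM L ρ K M).det ≠ 0 := by
  constructor
  · intro h hdet
    obtain ⟨v, hv, hv2⟩ := Matrix.exists_vecMul_eq_zero_iff.2 hdet
    apply hv
    obtain ⟨h1, h2⟩ := h (ofVec (fun i : Fin K => v (Fin.castAdd M i)))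
      (ofVec (fun l : Fin M => v (Fin.natAdd K l))) (ofVec_degree _) (ofVec_degree _)
      (fun j hj => by
        have := congrFun hv2 ⟨j, hj⟩
        rwa [BM_vecMul] at this)
    have h1' := ofVec_zero h1
    have h2' := ofVec_zero h2
    funext r
    refine Fin.addCases (fun i => ?_) (fun l => ?_) r
    · exact congrFun h1' i
    · exact congrFun h2' l
  · intro h F E hF hE hC
    by_contra hne
    apply h
    refine Matrix.exists_vecMul_eq_zero_iff.1
      ⟨Fin.addCases (fun i : Fin K => F.coeff i) (fun l : Fin M => E.coeff l), ?_, ?_⟩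
    · intro h0
      apply hne
      constructor
      · rw [← ofVec_coeff_self F hF]
        have h1 : (fun i : Fin K => F.coeff i) = 0 := by
          funext i
          have := congrFun h0 (Fin.castAdd M i)
          rwa [Fin.addCases_left] at this
        rw [h1, ofVec]
        simp
      · rw [← ofVec_coeff_self E hE]
        have h1 : (fun i : Fin M => E.coeff i) = 0 := by
          funext i
          have := congrFun h0 (Fin.natAdd K i)
          rwa [Fin.addCases_right] at this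
        rw [h1, ofVec]
        simp
    · funext j
      rw [BM_vecMul]
      simp only [Fin.addCases_left, Fin.addCases_right]
      rw [ofVec_coeff_self F hF, ofVec_coeff_self E hE]
      exact hC j j.2

theorem normal_iff_dnormal {K M : ℕ} : Normal L ρ K M ↔ DNormal L ρ K M := by
  rw [normal_iff_det, dnormal_iff_det]

/-- existence of the monic polynomial at a normal index -/
lemma exists_monic {K M : ℕ} (h : Normal L ρ K M) :
    ∃ G : ℝ[X], G.Monic ∧ G.natDegree = K + M ∧ Cond L ρ K M G := by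
  have hdet := normal_iff_det.1 h
  have hu : IsUnit (BM L ρ K M).det := isUnit_iff_ne_zero.2 hdet
  set w : Fin (K + M) → ℝ := Fin.addCases (fun i : Fin K => -L (X ^ (i : ℕ) * X ^ (K + M)))
    (fun l : Fin M => -ρ (X ^ (l : ℕ) * X ^ (K + M))) with hw
  set v := ((BM L ρ K M)⁻¹).mulVec w with hv
  have hBv : (BM L ρ K M).mulVec v = w := by
    rw [hv, Matrix.mulVec_mulVec, Matrix.mul_nonsing_inv _ hu, Matrix.one_mulVec]
  have hdeg : (ofVec v).degree < ((K + M : ℕ) : WithBot ℕ) := ofVec_degree v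
  refine ⟨X ^ (K + M) + ofVec v, ?_, ?_, ?_, ?_⟩
  · exact monic_X_pow_add hdeg
  · rw [natDegree_add_eq_left_of_degree_lt, natDegree_X_pow]
    rw [degree_X_pow]
    exact hdeg
  · intro i hi
    have h1 := congrFun hBv (Fin.castAdd M ⟨i, hi⟩)
    rw [BM_mulVec_left, hw] at h1
    simp only [Fin.addCases_left] at h1
    rw [mul_add, map_add, h1]
    ring
  · intro l hl
    have h1 := congrFun hBv (Fin.natAdd K ⟨l, hl⟩)
    rw [BM_mulVec_right, hw] at h1
    simp only [Fin.addCases_right] at h1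
    rw [mul_add, map_add, h1]
    ring

/-- existence of the dual pair at a normal index -/
lemma exists_dual {K M : ℕ} (h : Normal L ρ K M) :
    ∃ F E : ℝ[X], F.Monic ∧ F.natDegree = K ∧ E.degree < (M : WithBot ℕ) ∧
      ∀ j < K + M, L (F * X ^ j) + ρ (E * X ^ j) = 0 := by
  have hdet := normal_iff_det.1 h
  have hu : IsUnit (BM L ρ K M).det := isUnit_iff_ne_zero.2 hdet
  set w : Fin (K + M) → ℝ := fun j => -L (X ^ K * X ^ (j : ℕ)) with hw
  set v := Matrix.vecMul w (BM L ρ K M)⁻¹ with hv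
  have hBv : Matrix.vecMul v (BM L ρ K M) = w := by
    rw [hv, Matrix.vecMul_vecMul, Matrix.nonsing_inv_mul _ hu, Matrix.vecMul_one]
  set F0 := ofVec (fun i : Fin K => v (Fin.castAdd M i)) with hF0
  set E0 := ofVec (fun l : Fin M => v (Fin.natAdd K l)) with hE0
  have hdeg : F0.degree < ((K : ℕ) : WithBot ℕ) := ofVec_degree _
  refine ⟨X ^ K + F0, E0, monic_X_pow_add hdeg, ?_, ofVec_degree _, ?_⟩
  · rw [natDegree_add_eq_left_of_degree_lt, natDegree_X_pow]
    rw [degree_X_pow]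
    exact hdeg
  · intro j hj
    have h1 := congrFun hBv ⟨j, hj⟩
    rw [BM_vecMul, hw] at h1
    simp only at h1
    rw [add_mul, map_add]
    linarith

/-! ### tools -/

lemma map_mul_zero (φ : ℝ[X] →ₗ[ℝ] ℝ) {G : ℝ[X]} {n : ℕ} (h : ∀ i < n, φ (X ^ i * G) = 0)
    {p : ℝ[X]} (hp : p.degree < (n : WithBot ℕ)) : φ (p * G) = 0 := by
  rw [← ofVec_coeff_self p hp, ofVec, Finset.sum_mul, map_sum]
  refine Finset.sum_eq_zero fun i _ => ?_
  rw [mul_assoc, ← smul_eq_C_mul, map_smul, h i i.2, smul_zero]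

/-- if all powers below `n` are killed, the value at a polynomial of degree `n` is the leading
coefficient times the value at `X ^ n` -/
lemma map_mul_lead (φ : ℝ[X] →ₗ[ℝ] ℝ) {G : ℝ[X]} {n : ℕ} (h : ∀ i < n, φ (X ^ i * G) = 0)
    {p : ℝ[X]} (hp : p.degree ≤ (n : WithBot ℕ)) : φ (p * G) = p.coeff n * φ (X ^ n * G) := by
  have h1 : (p - C (p.coeff n) * X ^ n).degree < (n : WithBot ℕ) := by
    rw [degree_lt_iff_coeff_zero]
    intro m hm
    rcases Nat.lt_or_ge n m with h2 | h2
    · rw [coeff_sub, coeff_C_mul_X_pow, if_neg (by omega), sub_zero]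
      exact coeff_eq_zero_of_degree_lt (lt_of_le_of_lt hp (by exact_mod_cast h2))
    · have : m = n := le_antisymm h2 hm
      subst this
      simp
  have h2 := map_mul_zero φ h h1
  rw [sub_mul, map_sub, sub_eq_zero] at h2
  rw [h2, mul_assoc, ← smul_eq_C_mul, map_smul, smul_eq_mul]

lemma Cond.mul {K M a : ℕ} {G : ℝ[X]} (h : Cond L ρ (K + a) (M + a) G) {p : ℝ[X]}
    (hp : p.degree ≤ (a : WithBot ℕ)) : Cond L ρ K M (p * G) := by
  have key : ∀ i n : ℕ, i < n → (X ^ i * p).degree < ((n + a : ℕ) : WithBot ℕ) := by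
    intro i n hi
    refine lt_of_le_of_lt (degree_mul_le _ _) ?_
    rw [degree_X_pow]
    calc (i : WithBot ℕ) + p.degree ≤ (i : WithBot ℕ) + (a : WithBot ℕ) := by gcongr
      _ = ((i + a : ℕ) : WithBot ℕ) := by push_cast; rfl
      _ < ((n + a : ℕ) : WithBot ℕ) := by exact_mod_cast (by omega : i + a < n + a)
  refine ⟨fun i hi => ?_, fun l hl => ?_⟩
  · rw [← mul_assoc]
    exact map_mul_zero L h.1 (key i K hi)
  · rw [← mul_assoc]
    exact map_mul_zero ρ h.2 (key l M hl)

lemma Cond.sub {K M : ℕ} {G H : ℝ[X]} (h : Cond L ρ K M G) (h' : Cond L ρ K M H) :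
    Cond L ρ K M (G - H) := by
  refine ⟨fun i hi => ?_, fun l hl => ?_⟩
  · rw [mul_sub, map_sub, h.1 i hi, h'.1 i hi, sub_zero]
  · rw [mul_sub, map_sub, h.2 l hl, h'.2 l hl, sub_zero]

lemma Cond.mono {K M K' M' : ℕ} {G : ℝ[X]} (h : Cond L ρ K M G) (hK : K' ≤ K) (hM : M' ≤ M) :
    Cond L ρ K' M' G :=
  ⟨fun i hi => h.1 i (by omega), fun l hl => h.2 l (by omega)⟩

/-- a polynomial with the conditions of `(K, M)` and degree at most `K + M + k` is a multiple of
`G` if `G` has `k` extra conditions -/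
lemma eq_mul_of_cond {K M k : ℕ} (hn : Normal L ρ K M) {G : ℝ[X]} (hG : G.Monic)
    (hd : G.natDegree = K + M) (hC : Cond L ρ (K + k) (M + k) G) {H : ℝ[X]}
    (hH : H.degree < ((K + M + k + 1 : ℕ) : WithBot ℕ)) (hHC : Cond L ρ K M H) :
    H = (H /ₘ G) * G ∧ (H /ₘ G).degree ≤ (k : WithBot ℕ) := by
  have h1 : H %ₘ G + G * (H /ₘ G) = H := modByMonic_add_div H G
  have h2 : (H /ₘ G).degree ≤ (k : WithBot ℕ) := by
    rcases eq_or_ne H 0 with rfl | hH0
    · rw [zero_divByMonic, degree_zero]; exact bot_le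
    · have h3 := natDegree_divByMonic H hG
      have h4 : H.natDegree < K + M + k + 1 := (natDegree_lt_iff_degree_lt hH0).2 hH
      refine degree_le_of_natDegree_le ?_
      omega
  have h3 : Cond L ρ K M ((H /ₘ G) * G) := hC.mul h2
  have h4 : Cond L ρ K M (H %ₘ G) := by
    have : H %ₘ G = H - (H /ₘ G) * G := by linear_combination h1
    rw [this]
    exact hHC.sub h3
  have h5 : H %ₘ G = 0 := by
    refine hn _ ?_ h4
    have := degree_modByMonic_lt H hG
    rwa [degree_eq_natDegree hG.ne_zero, hd] at this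
  refine ⟨?_, h2⟩
  rw [h5, zero_add, mul_comm] at h1
  exact h1.symm

/-- one step of the descent -/
lemma step_aux (φ : ℝ[X] →ₗ[ℝ] ℝ) {G p : ℝ[X]} {n k : ℕ}
    (h : ∀ i < n + k, φ (X ^ i * G) = 0) (hp : p ≠ 0) (hpk : p.degree ≤ (k : WithBot ℕ))
    (hH : ∀ i < n + k + 1, φ (X ^ i * (p * G)) = 0) : φ (X ^ (n + k) * G) = 0 := by
  have hr : p.natDegree ≤ k := natDegree_le_of_degree_le hpk
  have h1 := hH (n + k - p.natDegree) (by omega)
  rw [← mul_assoc] at h1
  set u : ℝ[X] := X ^ (n + k - p.natDegree) * p with hu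
  have hu0 : u ≠ 0 := mul_ne_zero (pow_ne_zero _ X_ne_zero) hp
  have hX : u.natDegree = n + k := by
    rw [hu, natDegree_mul (pow_ne_zero _ X_ne_zero) hp, natDegree_X_pow]
    omega
  have h2 : u.degree ≤ ((n + k : ℕ) : WithBot ℕ) := by
    rw [← hX]
    exact degree_le_natDegree
  rw [map_mul_lead φ h h2] at h1
  rcases mul_eq_zero.1 h1 with h3 | h3
  · exfalso
    rw [← hX, coeff_natDegree, leadingCoeff_eq_zero] at h3
    exact hu0 h3
  · exact h3

/-- Pearson data for the pair of functionals -/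
structure Pearson (L ρ : ℝ[X] →ₗ[ℝ] ℝ) (s : ℕ) where
  T : ℝ[X] →ₗ[ℝ] ℝ[X]
  T1 : ℝ[X] →ₗ[ℝ] ℝ[X]
  T2 : ℝ[X] →ₗ[ℝ] ℝ[X]
  degT : ∀ (n : ℕ) (G : ℝ[X]), G.degree < (n : WithBot ℕ) → (T G).degree < ((n + s : ℕ) : WithBot ℕ)
  degT1 : ∀ (n : ℕ) (G : ℝ[X]), G.degree < (n : WithBot ℕ) →
    (T1 G).degree < ((n + s : ℕ) : WithBot ℕ)
  degT2 : ∀ (n : ℕ) (G : ℝ[X]), G.degree < (n : WithBot ℕ) →
    (T2 G).degree < ((n + s : ℕ) : WithBot ℕ)
  pL : ∀ F G : ℝ[X], L (F * T G) = -L (T1 F * G)
  pρ : ∀ E G : ℝ[X], ρ (E * T G) = -ρ (T2 E * G)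
  lead : ∀ n r : ℕ, (T (X ^ n)).coeff (n + s) + (T1 (X ^ r)).coeff (r + s) ≠ 0
  lead2 : ∀ n r : ℕ, (T (X ^ n)).coeff (n + s) + (T2 (X ^ r)).coeff (r + s) ≠ 0

lemma lead_coeff {S : ℝ[X] →ₗ[ℝ] ℝ[X]} {s : ℕ}
    (hS : ∀ (n : ℕ) (G : ℝ[X]), G.degree < (n : WithBot ℕ) →
      (S G).degree < ((n + s : ℕ) : WithBot ℕ)) {G : ℝ[X]} (hG : G.Monic) :
    (S G).coeff (G.natDegree + s) = (S (X ^ G.natDegree)).coeff (G.natDegree + s) := by
  have h1 : (G - X ^ G.natDegree).degree < (G.natDegree : WithBot ℕ) := by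
    have h2 := degree_sub_lt_left (p := G) (q := X ^ G.natDegree) (by
      rw [degree_X_pow, degree_eq_natDegree hG.ne_zero]) hG.ne_zero (by
      rw [hG.leadingCoeff, leadingCoeff_X_pow])
    rwa [degree_eq_natDegree hG.ne_zero] at h2
  have h3 := coeff_eq_zero_of_degree_lt (hS _ _ h1)
  rw [map_sub, coeff_sub, sub_eq_zero] at h3
  exact h3

lemma coeff_mul_monic {p G : ℝ[X]} {k : ℕ} (hp : p.degree ≤ (k : WithBot ℕ)) (hG : G.Monic) :
    (p * G).coeff (G.natDegree + k) = p.coeff k := by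
  rw [add_comm, coeff_mul_add_eq_of_natDegree_le (natDegree_le_of_degree_le hp) le_rfl,
    coeff_natDegree, hG.leadingCoeff, mul_one]

lemma deg_le_of_lt {p : ℝ[X]} {n : ℕ} (h : p.degree < ((n + 1 : ℕ) : WithBot ℕ)) :
    p.degree ≤ (n : WithBot ℕ) := by
  rcases eq_or_ne p 0 with rfl | hp
  · rw [degree_zero]; exact bot_le
  · rw [← natDegree_lt_iff_degree_lt hp] at h
    exact degree_le_of_natDegree_le (by omega)

/-- recursion: all moments vanish -/
lemma all_zero (φ : ℝ[X] →ₗ[ℝ] ℝ) {s : ℕ} (h0 : ∀ j < s, φ (X ^ j) = 0) (U : ℕ → ℝ[X])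
    (hU : ∀ r, (U r).degree ≤ ((r + s : ℕ) : WithBot ℕ)) (hU1 : ∀ r, (U r).coeff (r + s) ≠ 0)
    (hφ : ∀ r, φ (U r) = 0) (P : ℝ[X]) : φ P = 0 := by
  have h1 : ∀ j, φ (X ^ j) = 0 := by
    intro j
    induction j using Nat.strong_induction_on with
    | _ j ih =>
      rcases Nat.lt_or_ge j s with hj | hj
      · exact h0 j hj
      · obtain ⟨r, rfl⟩ : ∃ r, j = r + s := ⟨j - s, by omega⟩
        have h2 := map_mul_lead φ (G := 1) (n := r + s) (fun i hi => by
          rw [mul_one]; exact ih i hi) (hU r)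
        rw [mul_one, mul_one, hφ r] at h2
        rcases mul_eq_zero.1 h2.symm with h3 | h3
        · exact absurd h3 (hU1 r)
        · exact h3
  have h2 := map_mul_zero φ (G := 1) (n := P.natDegree + 1) (fun i _ => by
    rw [mul_one]; exact h1 i) (p := P) (by
      exact lt_of_le_of_lt degree_le_natDegree (by exact_mod_cast Nat.lt_succ_self _))
  rwa [mul_one] at h2

lemma degree_X_pow_lt (j : ℕ) : (X ^ j : ℝ[X]).degree < ((j + 1 : ℕ) : WithBot ℕ) := by
  rw [degree_X_pow]
  exact_mod_cast Nat.lt_succ_self j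

theorem primal {s : ℕ} (P : Pearson L ρ s)
    (NA : ∀ G : ℝ[X], G.Monic → (∀ Q, L (G * Q) = 0) → False) {K M : ℕ}
    (hn : Normal L ρ K M) :
    ∃ k, 1 ≤ k ∧ k ≤ s ∧ (Normal L ρ (K + k) M ∨ Normal L ρ K (M + k)) := by
  by_contra hcon
  push Not at hcon
  obtain ⟨G, hG, hd, hC⟩ := exists_monic hn
  have step : ∀ k, k ≤ s → Cond L ρ (K + k) (M + k) G := by
    intro k
    induction k with
    | zero => intro _; exact hC
    | succ k ih =>
      intro hk
      have hCk := ih (by omega)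
      obtain ⟨hc1, hc2⟩ := hcon (k + 1) (by omega) hk
      have e1 : L (X ^ (K + k) * G) = 0 := by
        unfold Normal at hc1
        push Not at hc1
        obtain ⟨H, hH1, hH2, hH3⟩ := hc1
        obtain ⟨h1, h2⟩ := eq_mul_of_cond hn hG hd hCk (H := H)
          (by rwa [show K + M + k + 1 = K + (k + 1) + M by ring])
          (hH2.mono (by omega) (by omega))
        have hp : (H /ₘ G) ≠ 0 := by
          intro h0
          rw [h0, zero_mul] at h1
          exact hH3 h1
        refine step_aux L hCk.1 hp h2 fun i hi => ?_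
        rw [← h1]
        exact hH2.1 i (by omega)
      have e2 : ρ (X ^ (M + k) * G) = 0 := by
        unfold Normal at hc2
        push Not at hc2
        obtain ⟨H, hH1, hH2, hH3⟩ := hc2
        obtain ⟨h1, h2⟩ := eq_mul_of_cond hn hG hd hCk (H := H)
          (by rwa [show K + M + k + 1 = K + (M + (k + 1)) by ring])
          (hH2.mono (by omega) (by omega))
        have hp : (H /ₘ G) ≠ 0 := by
          intro h0
          rw [h0, zero_mul] at h1
          exact hH3 h1
        refine step_aux ρ hCk.2 hp h2 fun i hi => ?_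
        rw [← h1]
        exact hH2.2 i (by omega)
      refine ⟨fun i hi => ?_, fun l hl => ?_⟩
      · rcases Nat.lt_or_ge i (K + k) with h | h
        · exact hCk.1 i h
        · have : i = K + k := by omega
          rw [this]; exact e1
      · rcases Nat.lt_or_ge l (M + k) with h | h
        · exact hCk.2 l h
        · have : l = M + k := by omega
          rw [this]; exact e2
  have hCs := step s le_rfl
  have hGd : G.degree < ((K + M + 1 : ℕ) : WithBot ℕ) := by
    rw [degree_eq_natDegree hG.ne_zero, hd]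
    exact_mod_cast Nat.lt_succ_self _
  have hTC : Cond L ρ K M (P.T G) := by
    refine ⟨fun i hi => ?_, fun l hl => ?_⟩
    · rw [P.pL, map_mul_zero L hCs.1, neg_zero]
      refine lt_of_lt_of_le (P.degT1 (i + 1) _ (degree_X_pow_lt i)) ?_
      exact_mod_cast (by omega : i + 1 + s ≤ K + s)
    · rw [P.pρ, map_mul_zero ρ hCs.2, neg_zero]
      refine lt_of_lt_of_le (P.degT2 (l + 1) _ (degree_X_pow_lt l)) ?_
      exact_mod_cast (by omega : l + 1 + s ≤ M + s)
  obtain ⟨h1, h2⟩ := eq_mul_of_cond hn hG hd hCs (H := P.T G)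
    (by
      have := P.degT (K + M + 1) G hGd
      rwa [show K + M + 1 + s = K + M + s + 1 by ring] at this) hTC
  set q := P.T G /ₘ G with hq
  have hqs : q.coeff s = (P.T (X ^ G.natDegree)).coeff (G.natDegree + s) := by
    rw [← lead_coeff P.degT hG, h1, coeff_mul_monic h2 hG]
  -- all moments vanish
  set φ : ℝ[X] →ₗ[ℝ] ℝ := L.comp (LinearMap.mulLeft ℝ G) with hφ
  have hφa : ∀ Q, φ Q = L (G * Q) := fun Q => rfl
  have hall : ∀ Q, φ Q = 0 := by
    refine all_zero φ (s := s) (fun j hj => ?_) (fun r => q * X ^ r + P.T1 (X ^ r)) (fun r => ?_)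
      (fun r => ?_) (fun r => ?_)
    · rw [hφa, mul_comm]; exact hCs.1 j (by omega)
    · refine (degree_add_le _ _).trans (max_le ?_ ?_)
      · refine (degree_mul_le _ _).trans ?_
        rw [degree_X_pow]
        calc q.degree + (r : WithBot ℕ) ≤ (s : WithBot ℕ) + (r : WithBot ℕ) := by gcongr
          _ = ((r + s : ℕ) : WithBot ℕ) := by push_cast; rw [add_comm]
      · have := P.degT1 (r + 1) _ (degree_X_pow_lt r)
        rw [show r + 1 + s = (r + s) + 1 by ring] at this
        exact deg_le_of_lt this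
    · rw [coeff_add, add_comm r s, coeff_mul_X_pow, hqs, add_comm s r]
      exact P.lead _ _
    · rw [hφa, mul_add, map_add]
      have h3 := P.pL (X ^ r) G
      rw [h1] at h3
      have e1 : G * (q * X ^ r) = X ^ r * (q * G) := by ring
      rw [e1, h3, mul_comm G]
      ring
  exact NA G hG fun Q => hall Q

/-! ### the dual side -/

/-- the functional attached to a pair -/
noncomputable def dfun (L ρ : ℝ[X] →ₗ[ℝ] ℝ) (F E : ℝ[X]) : ℝ[X] →ₗ[ℝ] ℝ :=
  L.comp (LinearMap.mulLeft ℝ F) + ρ.comp (LinearMap.mulLeft ℝ E)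

lemma dfun_apply (F E P : ℝ[X]) : dfun L ρ F E P = L (F * P) + ρ (E * P) := rfl

lemma degree_mul_lt {p E : ℝ[X]} {k M : ℕ} (hp : p.degree ≤ (k : WithBot ℕ))
    (hE : E.degree < ((M - k : ℕ) : WithBot ℕ)) : (p * E).degree < (M : WithBot ℕ) := by
  rcases eq_or_ne E 0 with rfl | hE0
  · rw [mul_zero, degree_zero]; exact WithBot.bot_lt_coe _
  rcases eq_or_ne p 0 with rfl | hp0
  · rw [zero_mul, degree_zero]; exact WithBot.bot_lt_coe _
  rw [← natDegree_lt_iff_degree_lt (mul_ne_zero hp0 hE0), natDegree_mul hp0 hE0]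
  rw [← natDegree_lt_iff_degree_lt hE0] at hE
  have := natDegree_le_of_degree_le hp
  omega

lemma eq_mul_of_dual {K M k : ℕ} (hn : Normal L ρ K M) {F E : ℝ[X]} (hF : F.Monic)
    (hd : F.natDegree = K) (hE : E.degree < ((M - k : ℕ) : WithBot ℕ))
    (hφ : ∀ j < K + M + k, dfun L ρ F E (X ^ j) = 0) {F' E' : ℝ[X]}
    (hF' : F'.degree < ((K + k + 1 : ℕ) : WithBot ℕ)) (hE' : E'.degree < (M : WithBot ℕ))
    (h : ∀ j < K + M, L (F' * X ^ j) + ρ (E' * X ^ j) = 0) :
    F' = (F' /ₘ F) * F ∧ E' = (F' /ₘ F) * E ∧ (F' /ₘ F).degree ≤ (k : WithBot ℕ) := by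
  have h1 : F' %ₘ F + F * (F' /ₘ F) = F' := modByMonic_add_div F' F
  have h2 : (F' /ₘ F).degree ≤ (k : WithBot ℕ) := by
    rcases eq_or_ne F' 0 with rfl | hH0
    · rw [zero_divByMonic, degree_zero]; exact bot_le
    · have h3 := natDegree_divByMonic F' hF
      have h4 : F'.natDegree < K + k + 1 := (natDegree_lt_iff_degree_lt hH0).2 hF'
      refine degree_le_of_natDegree_le ?_
      omega
  set p := F' /ₘ F with hp
  have h3 : ∀ j < K + M, L (p * F * X ^ j) + ρ (p * E * X ^ j) = 0 := by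
    intro j hj
    have h4 := map_mul_zero (dfun L ρ F E) (G := 1) (n := K + M + k) (fun i hi => by
      rw [mul_one]; exact hφ i hi) (p := p * X ^ j) (by
        refine lt_of_le_of_lt (degree_mul_le _ _) ?_
        rw [degree_X_pow]
        calc p.degree + (j : WithBot ℕ) ≤ (k : WithBot ℕ) + (j : WithBot ℕ) := by gcongr
          _ = ((k + j : ℕ) : WithBot ℕ) := by push_cast; rfl
          _ < ((K + M + k : ℕ) : WithBot ℕ) := by exact_mod_cast (by omega : k + j < K + M + k))
    rw [mul_one, dfun_apply] at h4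
    have e1 : p * F * X ^ j = F * (p * X ^ j) := by ring
    have e2 : p * E * X ^ j = E * (p * X ^ j) := by ring
    rw [e1, e2]
    exact h4
  have hD := (normal_iff_dnormal.1 hn) (F' - p * F) (E' - p * E) ?_ ?_ ?_
  · refine ⟨sub_eq_zero.1 hD.1, sub_eq_zero.1 hD.2, h2⟩
  · have e1 : F' - p * F = F' %ₘ F := by linear_combination -h1
    rw [e1]
    have := degree_modByMonic_lt F' hF
    rwa [degree_eq_natDegree hF.ne_zero, hd] at this
  · exact lt_of_le_of_lt (degree_sub_le _ _) (max_lt hE' (degree_mul_lt h2 hE))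
  · intro j hj
    have e1 := h j hj
    have e2 := h3 j hj
    rw [sub_mul, sub_mul, map_sub, map_sub]
    linarith

theorem dual {s : ℕ} (P : Pearson L ρ s) {K M : ℕ}
    (NA : ∀ F E : ℝ[X], F.Monic → F.natDegree = K → E.degree < (M : WithBot ℕ) →
      (∀ Q, L (F * Q) + ρ (E * Q) = 0) → False)
    (hn : Normal L ρ K M) :
    ∃ k, 1 ≤ k ∧ k ≤ s ∧ (Normal L ρ (K + k) M ∨ (k ≤ M ∧ Normal L ρ (K + k) (M - k))) := by
  by_contra hcon
  push Not at hcon
  obtain ⟨F, E, hF, hd, hE, hC⟩ := exists_dual hn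
  have step : ∀ k, k ≤ s → E.degree < ((M - k : ℕ) : WithBot ℕ) ∧
      ∀ j < K + M + k, dfun L ρ F E (X ^ j) = 0 := by
    intro k
    induction k with
    | zero => intro _; exact ⟨hE, hC⟩
    | succ k ih =>
      intro hk
      obtain ⟨hEk, hCk⟩ := ih (by omega)
      obtain ⟨hc1, hc2⟩ := hcon (k + 1) (by omega) hk
      constructor
      · rcases Nat.lt_or_ge M (k + 1) with hM | hM
        · rwa [show M - (k + 1) = M - k by omega]
        · have hc3 := hc2 hM
          rw [normal_iff_dnormal] at hc3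
          unfold DNormal at hc3
          push Not at hc3
          obtain ⟨F', E', h1, h2, h3, h4⟩ := hc3
          obtain ⟨h5, h6, h7⟩ := eq_mul_of_dual hn hF hd hEk hCk (F' := F') (E' := E')
            (by rwa [show K + k + 1 = K + (k + 1) by ring])
            (lt_of_lt_of_le h2 (by exact_mod_cast Nat.sub_le _ _))
            (fun j hj => h3 j (by omega))
          set p := F' /ₘ F with hp
          have hp0 : p ≠ 0 := by
            intro h0
            rw [h0, zero_mul] at h5 h6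
            exact h4 h5 h6
          rcases eq_or_ne E 0 with h0 | h0
          · rw [h0, degree_zero]; exact WithBot.bot_lt_coe _
          · rw [h6, ← natDegree_lt_iff_degree_lt (mul_ne_zero hp0 h0), natDegree_mul hp0 h0] at h2
            rw [← natDegree_lt_iff_degree_lt h0]
            omega
      · have e1 : dfun L ρ F E (X ^ (K + M + k)) = 0 := by
          rw [normal_iff_dnormal] at hc1
          unfold DNormal at hc1
          push Not at hc1
          obtain ⟨F', E', h1, h2, h3, h4⟩ := hc1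
          obtain ⟨h5, h6, h7⟩ := eq_mul_of_dual hn hF hd hEk hCk (F' := F') (E' := E')
            (by rwa [show K + k + 1 = K + (k + 1) by ring]) h2
            (fun j hj => h3 j (by omega))
          set p := F' /ₘ F with hp
          have hp0 : p ≠ 0 := by
            intro h0
            rw [h0, zero_mul] at h5 h6
            exact h4 h5 h6
          have h8 := step_aux (dfun L ρ F E) (G := 1) (p := p) (n := K + M) (k := k)
            (fun i hi => by rw [mul_one]; exact hCk i hi) hp0 h7 (fun i hi => by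
              rw [mul_one, dfun_apply]
              have h9 := h3 i (by omega)
              rw [h5, h6] at h9
              have e1 : F * (X ^ i * p) = p * F * X ^ i := by ring
              have e2 : E * (X ^ i * p) = p * E * X ^ i := by ring
              rw [e1, e2]
              exact h9)
          rwa [mul_one] at h8
        intro j hj
        rcases Nat.lt_or_ge j (K + M + k) with h | h
        · exact hCk j h
        · have : j = K + M + k := by omega
          rw [this]; exact e1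
  obtain ⟨hEs, hCs⟩ := step s le_rfl
  have hzero : ∀ Q : ℝ[X], Q.degree < ((K + M + s : ℕ) : WithBot ℕ) → dfun L ρ F E Q = 0 := by
    intro Q hQ
    have := map_mul_zero (dfun L ρ F E) (G := 1) (n := K + M + s) (fun i hi => by
      rw [mul_one]; exact hCs i hi) hQ
    rwa [mul_one] at this
  have hrel : ∀ Q : ℝ[X], L (P.T1 F * Q) + ρ (P.T2 E * Q) = -dfun L ρ F E (P.T Q) := by
    intro Q
    rw [dfun_apply, P.pL, P.pρ]
    ring
  have hFd : F.degree < ((K + 1 : ℕ) : WithBot ℕ) := by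
    rw [degree_eq_natDegree hF.ne_zero, hd]
    exact_mod_cast Nat.lt_succ_self _
  obtain ⟨h1, h2, h3⟩ := eq_mul_of_dual hn hF hd hEs hCs (F' := P.T1 F) (E' := P.T2 E)
    (by
      have := P.degT1 (K + 1) F hFd
      rwa [show K + 1 + s = K + s + 1 by ring] at this)
    (by
      rcases eq_or_ne E 0 with h0 | h0
      · rw [h0, map_zero, degree_zero]; exact WithBot.bot_lt_coe _
      · have h4 : E.natDegree < M - s := (natDegree_lt_iff_degree_lt h0).2 hEs
        have h5 := P.degT2 (M - s) E hEs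
        rwa [show M - s + s = M by omega] at h5)
    (fun j hj => by
      rw [hrel, hzero, neg_zero]
      refine lt_of_lt_of_le (P.degT (j + 1) _ (degree_X_pow_lt j)) ?_
      exact_mod_cast (by omega : j + 1 + s ≤ K + M + s))
  set q := P.T1 F /ₘ F with hq
  have hqs : q.coeff s = (P.T1 (X ^ F.natDegree)).coeff (F.natDegree + s) := by
    rw [← lead_coeff P.degT1 hF, h1, coeff_mul_monic h3 hF]
  have hall : ∀ Q, dfun L ρ F E Q = 0 := by
    refine all_zero _ (s := s) (fun j hj => hCs j (by omega))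
      (fun r => P.T (X ^ r) + q * X ^ r) (fun r => ?_) (fun r => ?_) (fun r => ?_)
    · refine (degree_add_le _ _).trans (max_le ?_ ?_)
      · have := P.degT (r + 1) _ (degree_X_pow_lt r)
        rw [show r + 1 + s = (r + s) + 1 by ring] at this
        exact deg_le_of_lt this
      · refine (degree_mul_le _ _).trans ?_
        rw [degree_X_pow]
        calc q.degree + (r : WithBot ℕ) ≤ (s : WithBot ℕ) + (r : WithBot ℕ) := by gcongr
          _ = ((r + s : ℕ) : WithBot ℕ) := by push_cast; rw [add_comm]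
    · rw [coeff_add, add_comm r s, coeff_mul_X_pow, hqs, add_comm s r]
      exact P.lead _ _
    · have h4 := hrel (X ^ r)
      rw [h1, h2] at h4
      have e1 : q * F * X ^ r = F * (q * X ^ r) := by ring
      have e2 : q * E * X ^ r = E * (q * X ^ r) := by ring
      rw [e1, e2, ← dfun_apply] at h4
      rw [map_add, h4]
      ring
  exact NA F E hF hd hE fun Q => hall Q

/-! ### the walk -/

lemma normal_zero_iff {M : ℕ} : Normal L ρ 0 M ↔ Normal ρ ρ M 0 := by
  unfold Normal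
  refine forall_congr' fun G => ?_
  rw [Nat.zero_add, Nat.add_zero]
  refine imp_congr_right fun _ => imp_congr_left ⟨fun h => ⟨h.2, fun l hl => ?_⟩,
    fun h => ⟨fun i hi => ?_, h.1⟩⟩
  · exact absurd hl (Nat.not_lt_zero _)
  · exact absurd hi (Nat.not_lt_zero _)

/-- the Pearson data of the second functional alone -/
noncomputable def Pearson.second {s : ℕ} (P : Pearson L ρ s) : Pearson ρ ρ s where
  T := P.T
  T1 := P.T2
  T2 := P.T2
  degT := P.degT
  degT1 := P.degT2
  degT2 := P.degT2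
  pL := P.pρ
  pρ := P.pρ
  lead := P.lead2
  lead2 := P.lead2

lemma start_step {s : ℕ} (P : Pearson L ρ s) {M : ℕ}
    (NAρ : ∀ E : ℝ[X], E.Monic → E.natDegree = M → (∀ Q, ρ (E * Q) = 0) → False)
    (hn : Normal L ρ 0 M) : ∃ k, 1 ≤ k ∧ k ≤ s ∧ Normal L ρ 0 (M + k) := by
  obtain ⟨k, h1, h2, h3⟩ := dual P.second (K := M) (M := 0) (fun F E hF hd hE hQ => by
    have hE0 : E = 0 := by
      by_contra h0
      rw [← natDegree_lt_iff_degree_lt h0] at hE
      exact absurd hE (Nat.not_lt_zero _)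
    refine NAρ F hF hd fun Q => ?_
    have := hQ Q
    rwa [hE0, zero_mul, map_zero, add_zero] at this) (normal_zero_iff.1 hn)
  refine ⟨k, h1, h2, ?_⟩
  rcases h3 with h3 | h3
  · exact normal_zero_iff.2 h3
  · omega

lemma normal_zero_zero : Normal L ρ 0 0 := by
  intro G hG _
  by_contra h0
  rw [← natDegree_lt_iff_degree_lt h0] at hG
  omega

lemma start {s : ℕ} (hs : 1 ≤ s) (P : Pearson L ρ s) (m : ℕ)
    (NAρ : ∀ E : ℝ[X], E.Monic → E.natDegree < m → (∀ Q, ρ (E * Q) = 0) → False) (M : ℕ)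
    (hM : M ≤ m) : ∃ M0, M ≤ M0 ∧ M0 < M + s ∧ Normal L ρ 0 M0 := by
  induction M with
  | zero => exact ⟨0, le_rfl, by omega, normal_zero_zero⟩
  | succ M ih =>
    obtain ⟨M0, h1, h2, h3⟩ := ih (by omega)
    rcases Nat.lt_or_ge M M0 with h | h
    · exact ⟨M0, by omega, by omega, h3⟩
    · obtain rfl : M0 = M := by omega
      obtain ⟨k, h4, h5, h6⟩ := start_step P (fun E hE hd => NAρ E hE (by omega)) h3
      exact ⟨M0 + k, by omega, by omega, h6⟩

lemma progress {s : ℕ} (P : Pearson L ρ s)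
    (NA : ∀ F E : ℝ[X], F.Monic → (∀ Q, L (F * Q) + ρ (E * Q) = 0) → False) {K M : ℕ} :
    ∀ (d M' : ℕ), M ≤ M' + d → M ≤ M' + s → M' < M + s → Normal L ρ K M' →
      ∃ k M'', 1 ≤ k ∧ k ≤ s ∧ M ≤ M'' + s ∧ M'' < M + s ∧ Normal L ρ (K + k) M'' := by
  intro d
  induction d using Nat.strong_induction_on with
  | _ d ih =>
    intro M' hd h1 h2 hn
    rcases Nat.lt_or_ge M' M with h | h
    · obtain ⟨k, h3, h4, h5⟩ := primal P (fun G hG hQ => NA G 0 hG fun Q => by
        rw [zero_mul, map_zero, add_zero]; exact hQ Q) hn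
      rcases h5 with h5 | h5
      · exact ⟨k, M', h3, h4, h1, h2, h5⟩
      · exact ih (M - (M' + k)) (by omega) (M' + k) (by omega) (by omega) (by omega) h5
    · obtain ⟨k, h3, h4, h5⟩ := dual P (fun F E hF _ _ hQ => NA F E hF hQ) hn
      rcases h5 with h5 | ⟨h5, h6⟩
      · exact ⟨k, M', h3, h4, h1, h2, h5⟩
      · exact ⟨k, M' - k, h3, h4, by omega, by omega, h6⟩

/-- **The zero estimate.** -/
theorem zero_est {s : ℕ} (hs : 1 ≤ s) (P : Pearson L ρ s) (m : ℕ)
    (NA : ∀ F E : ℝ[X], F.Monic → (∀ Q, L (F * Q) + ρ (E * Q) = 0) → False)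
    (NAρ : ∀ E : ℝ[X], E.Monic → E.natDegree < m → (∀ Q, ρ (E * Q) = 0) → False)
    (K M : ℕ) (hM : M ≤ m) :
    ∃ K' M', K ≤ K' ∧ K' < K + s ∧ M ≤ M' + s ∧ M' < M + s ∧ (BM L ρ K' M').det ≠ 0 := by
  have key : ∃ K' M', K ≤ K' ∧ K' < K + s ∧ M ≤ M' + s ∧ M' < M + s ∧ Normal L ρ K' M' := by
    induction K with
    | zero =>
      obtain ⟨M0, h1, h2, h3⟩ := start hs P m NAρ M hM
      exact ⟨0, M0, le_rfl, by omega, by omega, h2, h3⟩
    | succ K ih =>
      obtain ⟨K', M', h1, h2, h3, h4, h5⟩ := ih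
      rcases Nat.lt_or_ge K K' with h | h
      · exact ⟨K', M', by omega, by omega, h3, h4, h5⟩
      · obtain rfl : K' = K := by omega
        obtain ⟨k, M'', h6, h7, h8, h9, h10⟩ := progress P NA M M' (by omega) h3 h4 h5
        exact ⟨K' + k, M'', by omega, by omega, h8, h9, h10⟩
  obtain ⟨K', M', h1, h2, h3, h4, h5⟩ := key
  exact ⟨K', M', h1, h2, h3, h4, normal_iff_det.1 h5⟩

end Vale.Agent.P021.Hyb
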